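import Vale.Agent.P283.MathlibUsed

/-!
Birational geometry of a normal affine variety `X = Spec A` over `ℂ` in terms of its function
field `K`: prime divisors over `X`, orders of rational `d`-forms, log discrepancies, `ε`-lc pairs,
klt `n`-complements; and the quotients `X = Y / G` of `Y = {x₀ x₁ ⋯ x_q = g(z₁, …, z_k)}`.

A rational `d`-form `ω ≠ 0` on `X`, `d = dim X`, is given by derivations `D₁, …, D_d` of `K` with
`ω(D₁, …, D_d) = 1`; then `df₁ ∧ ⋯ ∧ df_d = jac D f • ω` for all rational functions `fᵢ`.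
-/

namespace Vale.Agent.P283.Q

open MvPolynomial

variable {K : Type} [Field K] [Algebra ℂ K] {d : ℕ}

/-- The Jacobian determinant of `f₁, …, f_d`. -/
noncomputable def jac (D : Fin d → Derivation ℂ K K) (f : Fin d → K) : K :=
  (Matrix.of fun i j => D j (f i)).det

/-- `v` is the order of vanishing along a prime divisor `E` on some smooth model of the function
field `K` of dimension `d`: a discrete valuation with value group `ℤ`, trivial on `ℂ`, whose
residue field has transcendence degree `d - 1` over `ℂ`. -/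
structure IsDivisorial (d : ℕ) (v : AddValuation K (WithTop ℤ)) : Prop where
  const : ∀ c : ℂ, c ≠ 0 → v (algebraMap ℂ K c) = 0
  normalized : ∃ f : K, v f = 1
  residue : ∃ u : Fin (d - 1) → K, ∀ P : MvPolynomial (Fin (d - 1)) ℂ, P ≠ 0 →
    v (aeval u P) = 0

/-- The form `ω` has order `m` along `v`: `m` is the largest integer such that
`ω = h • df₁ ∧ ⋯ ∧ df_d`, that is `h * jac D f = 1`, with `v h = m` and with all `fᵢ` in the
valuation ring of `v`. -/
def FormOrder (v : AddValuation K (WithTop ℤ)) (D : Fin d → Derivation ℂ K K) (m : ℤ) : Prop :=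
  IsGreatest {k : ℤ | ∃ (h : K) (f : Fin d → K),
    v h = (k : WithTop ℤ) ∧ (∀ i, 0 ≤ v (f i)) ∧ h * jac D f = 1} m

/-! In the following `A` is a normal domain with fraction field `K` and `X = Spec A`. -/

variable (A : Subalgebra ℂ K)

/-- `v` has a centre on `X = Spec A`. -/
def IsOver (v : AddValuation K (WithTop ℤ)) : Prop :=
  ∀ a : A, 0 ≤ v a

/-- `p` is the centre of `v` on `X = Spec A`. -/
def IsCentre (v : AddValuation K (WithTop ℤ)) (p : Ideal A) : Prop :=
  ∀ a : A, a ∈ p ↔ 0 < v a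

/-- `u` is the order of vanishing along the prime divisor `p` on `X = Spec A`: `u` is a prime
divisor over `X` with centre `p`, and `p` has height one. -/
def IsPrimeDivisorOn (d : ℕ) (u : AddValuation K (WithTop ℤ)) (p : Ideal A) : Prop :=
  IsDivisorial d u ∧ IsOver A u ∧ IsCentre A u p ∧ p.height = 1

/-- A Weil `ℚ`-divisor on `X = Spec A`: finitely many height one primes with coefficients. -/
structure QDivisor where
  coeff : Ideal A → ℚ
  finite : {p : Ideal A | coeff p ≠ 0}.Finite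
  prime : ∀ p : Ideal A, coeff p ≠ 0 → p.IsPrime ∧ p.height = 1

variable {A}

/-- `r (K_X + B)` is the principal divisor of `φ` near the (generic point of the) prime `q`, where
`K_X` is the divisor of the rational form `ω`. -/
def IsLocalEquation (D : Fin d → Derivation ℂ K K) (B : QDivisor A) (q : Ideal A) (r : ℕ)
    (φ : K) : Prop :=
  0 < r ∧ φ ≠ 0 ∧ ∀ (u : AddValuation K (WithTop ℤ)) (p : Ideal A) (m k : ℤ),
    IsPrimeDivisorOn A d u p → p ≤ q → FormOrder u D m → u φ = (k : WithTop ℤ) →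
      (k : ℚ) = r * (m + B.coeff p)

/-- The pair `(X, B)` is `ε`-lc: `K_X + B` is `ℚ`-Cartier and all log discrepancies are at least
`ε`; the log discrepancy along a prime divisor `v` over `X` with centre `q` is
`1 + ord_v ω - v(φ) / r`, where `φ` is a local equation of `r (K_X + B)` near `q`. -/
def IsEpsLC (D : Fin d → Derivation ℂ K K) (B : QDivisor A) (ε : ℝ) : Prop :=
  (∀ q : Ideal A, q.IsPrime → ∃ r φ, IsLocalEquation D B q r φ) ∧
  ∀ (v : AddValuation K (WithTop ℤ)) (q : Ideal A) (r : ℕ) (φ : K) (m k : ℤ),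
    IsDivisorial d v → IsOver A v → IsCentre A v q → IsLocalEquation D B q r φ →
      FormOrder v D m → v φ = (k : WithTop ℤ) → ε ≤ 1 + (m : ℝ) - (k : ℝ) / r

/-- `(X, B)` has a klt `n`-complement over the closed point `z` (with `Z = X`, `f = id`): on a
principal open neighbourhood `U = {s ≠ 0}` of `z` there is a rational function `φ` such that the
`ℚ`-divisor `Λ` with `n (K_X + Λ) = div φ` satisfies `Λ ≥ 0` and `Λ ≥ B` on `U`, and `(U, Λ)` is
klt. The coefficient of `Λ` along the prime divisor `u` is `u(φ) / n - ord_u ω`, and the log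
discrepancy of `(U, Λ)` along a prime divisor `v` over `U` is `1 + ord_v ω - v(φ) / n`. -/
def HasKltComplement (D : Fin d → Derivation ℂ K K) (B : QDivisor A) (n : ℕ) (z : Ideal A) :
    Prop :=
  ∃ s : A, s ∉ z ∧ ∃ φ : K, φ ≠ 0 ∧
    (∀ (u : AddValuation K (WithTop ℤ)) (p : Ideal A) (m k : ℤ),
      IsPrimeDivisorOn A d u p → s ∉ p → FormOrder u D m → u φ = (k : WithTop ℤ) →
        0 ≤ (k : ℚ) / n - m ∧ B.coeff p ≤ (k : ℚ) / n - m) ∧
    ∀ (v : AddValuation K (WithTop ℤ)) (m k : ℤ), IsDivisorial d v → IsOver A v →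
      v s = 0 → FormOrder v D m → v φ = (k : WithTop ℤ) → 0 < 1 + (m : ℚ) - (k : ℚ) / n

/-- `X = Y / G`, where `Y` is the hypersurface `x₀ x₁ ⋯ x_q = g(z₁, …, z_k)` and `G` is a finite
group acting on `Y`, which permutes `x₀, …, x_q` up to scalars, acts linearly on the space spanned
by `z₁, …, z_k` and preserves the divisor `B_Y = ∑ b_j div(z_j)`. Here `L = ℂ(x₁, …, x_q, z₁, …,
z_k)` is the function field of `Y`, `K = L^G` is the function field of `X`, and
`A = K ∩ ℂ[x₀, …, x_q, z₁, …, z_k]` is the coordinate ring of `X`. -/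
structure IsQuotient {q k : ℕ} {L : Type} [Field L] [Algebra ℂ L] [Algebra K L]
    (x : Fin (q + 1) → L) (z : Fin k → L) (g : MvPolynomial (Fin k) ℂ) (b : Fin k → ℚ)
    (G : Subgroup (L ≃ₐ[ℂ] L)) (A : Subalgebra ℂ K) : Prop where
  independent : AlgebraicIndependent ℂ (Sum.elim (Fin.tail x) z)
  generate : IntermediateField.adjoin ℂ (Set.range (Fin.tail x) ∪ Set.range z) = ⊤
  equation : ∏ i, x i = aeval z g
  nonzero : g ≠ 0
  finite : Finite G
  permX : ∀ τ ∈ G, ∀ i, ∃ (i' : Fin (q + 1)) (c : ℂ), τ (x i) = c • x i'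
  linZ : ∀ τ ∈ G, ∀ j, τ (z j) ∈ Submodule.span ℂ (Set.range z)
  permZ : ∀ τ ∈ G, ∀ j, b j ≠ 0 → ∃ (j' : Fin k) (c : ℂ), b j' = b j ∧ τ (z j) = c • z j'
  field : ∀ f : L, f ∈ Set.range (algebraMap K L) ↔ ∀ τ ∈ G, τ f = f
  ring : ∀ a : K, a ∈ A ↔ algebraMap K L a ∈ Algebra.adjoin ℂ (Set.range x ∪ Set.range z)

/-- `π^* (K_X + B) = K_Y + B_Y` for the quotient map `π : Y → X = Y / G`, where
`B_Y = ∑ b_j div(z_j)`: here `K_X` is the divisor of the rational form `ω` given by `D`, and `K_Y`
the divisor of `π^* ω = h • Ω`, that is, the divisor of `h`, where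
`Ω = (x₁ ⋯ x_q)⁻¹ dx₁ ∧ ⋯ ∧ dx_q ∧ dz₁ ∧ ⋯ ∧ dz_k` generates the canonical sheaf of `Y`; the form
`π^* ω` is given by the extension `D'` of `D` to `L`. The equality is tested along every prime
divisor `w` on `Y` over a prime divisor `u` on `X`, where `e` is the ramification index of `π`
along `w`. -/
def IsCrepant {q k : ℕ} {L : Type} [Field L] [Algebra ℂ L] [Algebra K L]
    (x : Fin (q + 1) → L) (z : Fin k → L) (b : Fin k → ℚ) (A : Subalgebra ℂ K)
    (D : Fin (q + k) → Derivation ℂ K K) (B : QDivisor A) : Prop :=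
  ∀ (D' : Fin (q + k) → Derivation ℂ L L) (h : L),
    (∀ (i : Fin (q + k)) (f : K), D' i (algebraMap K L f) = algebraMap K L (D i f)) →
    h * jac D' (Fin.append (Fin.tail x) z) = ∏ l, Fin.tail x l →
    ∀ (u : AddValuation K (WithTop ℤ)) (p : Ideal A) (m : ℤ) (w : AddValuation L (WithTop ℤ))
      (e : ℕ) (a : ℤ) (a' : Fin k → ℤ),
      IsPrimeDivisorOn A (q + k) u p → FormOrder u D m →
      0 < e → (∃ f, w f = 1) → (∀ f : K, w (algebraMap K L f) = e • u f) →
      w h = (a : WithTop ℤ) → (∀ j, w (z j) = (a' j : WithTop ℤ)) →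
        (e : ℚ) * (m + B.coeff p) = a + ∑ j, b j * a' j

end Vale.Agent.P283.Q
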