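import Mathlib.Algebra.Group.WithOne.Basic
import Mathlib.Algebra.GroupWithZero.Pointwise.Finset
import Mathlib.Algebra.Lie.OfAssociative
import Mathlib.Algebra.MvPolynomial.Comap
import Mathlib.Algebra.MvPolynomial.Funext
import Mathlib.Algebra.Order.Archimedean.Real.Hom
import Mathlib.Algebra.Order.Quantale
import Mathlib.Algebra.Order.Ring.Star
import Mathlib.Algebra.Order.Star.Real
import Mathlib.Algebra.Polynomial.Smeval
import Mathlib.Algebra.Ring.Action.Pointwise.Finset
import Mathlib.Analysis.CStarAlgebra.Classes
import Mathlib.Analysis.Complex.Polynomial.Basic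
import Mathlib.Analysis.Convex.Caratheodory
import Mathlib.Analysis.SpecialFunctions.Log.ENNRealLog
import Mathlib.Computability.Reduce
import Mathlib.Data.FunLike.Fintype
import Mathlib.Data.Int.Star
import Mathlib.Data.Pi.Interval
import Mathlib.Data.Rat.Star
import Mathlib.FieldTheory.FinTrdeg
import Mathlib.LinearAlgebra.AffineSpace.FiniteDimensional
import Mathlib.LinearAlgebra.Eigenspace.Triangularizable
import Mathlib.LinearAlgebra.ExteriorPower.Basic
import Mathlib.Order.CompletePartialOrder
import Mathlib.RingTheory.Etale.Weakly
import Mathlib.RingTheory.Finiteness.ModuleFinitePresentation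
import Mathlib.RingTheory.Flat.TorsionFree
import Mathlib.RingTheory.HahnSeries.Summable
import Mathlib.RingTheory.HahnSeries.Valuation
import Mathlib.RingTheory.Henselian
import Mathlib.RingTheory.MvPolynomial.IrreducibleQuadratic
import Mathlib.RingTheory.PicardGroup
import Mathlib.RingTheory.RegularLocalRing.Defs
import Mathlib.RingTheory.SimpleRing.Principal
import Mathlib.RingTheory.TotallySplit
import Mathlib.RingTheory.Valuation.LocalSubring
import Mathlib.SetTheory.Lists
import Mathlib.Tactic
import Mathlib.Topology.Algebra.ProperAction.Basic

/-! The part of Mathlib that the development of this folder uses. -/
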